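import Crest.Agent.N067.A.All

-- ▼ part N067/A/Marg
section

/-!
# Row 67, basics: the one-dimensional marginal of the kernel `(μ - Δ)⁻¹` (helper43)

`∫ Gk μ z * f ⟪e, z⟫ dz = ∫ g1 μ s * f s ds`, `g1 μ s = exp (-√μ |s|) / (2 √μ)`, `‖e‖ = 1`.
-/

set_option autoImplicit false

open MeasureTheory Laplacian InnerProductSpace Topology Filter Set Metric
open scoped RealInnerProductSpace ContDiff Gradient ENNReal

namespace Crest.Agent.N067

open Crest.Agent.R077 Ker

noncomputable section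

variable {n : ℕ}

/-- the one-dimensional kernel -/
def g1 (μ s : ℝ) : ℝ := Real.exp (-√μ * |s|) / (2 * √μ)

theorem g1_nonneg (μ s : ℝ) : 0 ≤ g1 μ s := by unfold g1; positivity


theorem continuous_g1 (μ : ℝ) : Continuous (g1 μ) := by unfold g1; fun_prop


theorem g1_le (μ s : ℝ) : g1 μ s ≤ Real.exp (-√μ * s) / (2 * √μ) := by
  unfold g1
  refine div_le_div_of_nonneg_right (Real.exp_le_exp.2 ?_) (by positivity)
  nlinarith [le_abs_self s, Real.sqrt_nonneg μ]

theorem g1_of_nonneg (μ : ℝ) {s : ℝ} (hs : 0 ≤ s) : g1 μ s = Real.exp (-√μ * s) / (2 * √μ) := by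
  rw [g1, abs_of_nonneg hs]

theorem contDiff_ridge (e : EE n) {k : WithTop ℕ∞} : ContDiff ℝ k fun z : EE n => ⟪e, z⟫ :=
  (innerSL ℝ e).contDiff

theorem gsq_ridge (e z : EE n) : gsq (fun z : EE n => ⟪e, z⟫) z = ‖e‖ ^ 2 := by
  simp only [gsq, pdv_inner]
  rw [EuclideanSpace.norm_sq_eq]
  simp

theorem lap_ridge {e : EE n} (he : ‖e‖ = 1) {φ φ1 φ2 : ℝ → ℝ} (hφ : ContDiff ℝ 2 φ)
    (h1 : ∀ s, HasDerivAt φ (φ1 s) s) (h2 : ∀ s, HasDerivAt φ1 (φ2 s) s) (z : EE n) :
    (Δ fun z : EE n => φ ⟪e, z⟫) z = φ2 ⟪e, z⟫ := by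
  rw [lap_comp (f := fun z : EE n => ⟪e, z⟫) (contDiff_ridge e).contDiffAt hφ.contDiffAt
    (Eventually.of_forall h1) (h2 _), lap_inner, gsq_ridge, he]
  ring

/-- representation formula for ridge functions -/
theorem rep_ridge {μ M : ℝ} (hμ : 0 < μ) {e : EE n} (he : ‖e‖ = 1) {φ φ1 φ2 : ℝ → ℝ}
    (hφ : ContDiff ℝ 2 φ) (h1 : ∀ s, HasDerivAt φ (φ1 s) s) (h2 : ∀ s, HasDerivAt φ1 (φ2 s) s)
    (b0 : ∀ s, |φ s| ≤ M) (b2 : ∀ s, |φ2 s| ≤ M) :
    ∫ z : EE n, Gk μ z * (μ * φ ⟪e, z⟫ - φ2 ⟪e, z⟫) = φ 0 := by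
  have h := rep_zero (a := 0) (M := M) hμ le_rfl (by simpa using hμ)
    (hφ.comp (contDiff_ridge e)) (gr_of_bdd fun z => b0 _) (gr_of_bdd fun z => by
      rw [Function.comp_def, lap_ridge he hφ h1 h2]; exact b2 _)
  simp only [Function.comp_def, lap_ridge he hφ h1 h2, inner_zero_right] at h
  exact h.symm

theorem Gk_cos {μ : ℝ} (hμ : 0 < μ) {e : EE n} (he : ‖e‖ = 1) (ξ θ : ℝ) :
    ∫ z : EE n, Gk μ z * Real.cos (ξ * ⟪e, z⟫ + θ) = Real.cos θ / (μ + ξ ^ 2) := by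
  have hl : ∀ s, HasDerivAt (fun s => ξ * s + θ) ξ s := fun s => by
    simpa using ((hasDerivAt_id s).const_mul ξ).add_const θ
  have h := rep_ridge (M := 1 + ξ ^ 2) hμ he (φ := fun s => Real.cos (ξ * s + θ))
    (φ1 := fun s => -Real.sin (ξ * s + θ) * ξ) (φ2 := fun s => -(Real.cos (ξ * s + θ) * ξ) * ξ)
    (by fun_prop) (fun s => (hl s).cos) (fun s => (hl s).sin.neg.mul_const ξ)
    (fun s => (Real.abs_cos_le_one _).trans (by nlinarith [sq_nonneg ξ])) fun s => by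
      rw [neg_mul, abs_neg, mul_assoc, abs_mul, abs_mul_self]
      nlinarith [Real.abs_cos_le_one (ξ * s + θ), mul_self_nonneg ξ, abs_nonneg (Real.cos (ξ * s + θ))]
  have e1 : ∀ z : EE n, Gk μ z * (μ * Real.cos (ξ * ⟪e, z⟫ + θ) - -(Real.cos (ξ * ⟪e, z⟫ + θ) * ξ) * ξ)
      = (μ + ξ ^ 2) * (Gk μ z * Real.cos (ξ * ⟪e, z⟫ + θ)) := fun z => by ring
  simp only [e1, integral_const_mul, mul_zero, zero_add] at h
  rw [← h, mul_div_cancel_left₀ _ (by positivity)]

theorem g1_cexp {μ : ℝ} (hμ : 0 < μ) (ξ : ℝ) :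
    Integrable (fun s : ℝ => g1 μ s • Complex.exp (ξ * s * Complex.I)) ∧
      ∫ s : ℝ, g1 μ s • Complex.exp (ξ * s * Complex.I) = ((μ + ξ ^ 2)⁻¹ : ℝ) := by
  have hk := Real.sqrt_pos.2 hμ
  have hk2 : ((√μ : ℝ) : ℂ) ^ 2 = μ := by exact_mod_cast Real.sq_sqrt hμ.le
  set k := √μ with hkk
  have e1 : EqOn (fun s : ℝ => g1 μ s • Complex.exp (ξ * s * Complex.I))
      (fun s : ℝ => (2 * k : ℂ)⁻¹ * Complex.exp ((k + ξ * Complex.I) * s)) (Iic 0) := by
    intro s hs
    simp only [g1, ← hkk, abs_of_nonpos (mem_Iic.1 hs), Complex.real_smul]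
    push_cast
    rw [div_mul_eq_mul_div, ← Complex.exp_add, div_eq_inv_mul]
    congr 2; ring
  have e2 : EqOn (fun s : ℝ => g1 μ s • Complex.exp (ξ * s * Complex.I))
      (fun s : ℝ => (2 * k : ℂ)⁻¹ * Complex.exp ((-k + ξ * Complex.I) * s)) (Ioi 0) := by
    intro s hs
    simp only [g1, ← hkk, abs_of_pos (mem_Ioi.1 hs), Complex.real_smul]
    push_cast
    rw [div_mul_eq_mul_div, ← Complex.exp_add, div_eq_inv_mul]
    congr 2; ring
  have r1 : 0 < ((k : ℂ) + ξ * Complex.I).re := by simpa using hk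
  have r2 : (-(k : ℂ) + ξ * Complex.I).re < 0 := by simpa using hk
  have i1 := ((integrableOn_exp_mul_complex_Iic r1 0).const_mul (2 * k : ℂ)⁻¹)
  have i2 := ((integrableOn_exp_mul_complex_Ioi r2 0).const_mul (2 * k : ℂ)⁻¹)
  have j1 := IntegrableOn.congr_fun i1 e1.symm measurableSet_Iic
  have j2 := IntegrableOn.congr_fun i2 e2.symm measurableSet_Ioi
  refine ⟨by simpa only [Iic_union_Ioi, integrableOn_univ] using j1.union j2, ?_⟩
  rw [← intervalIntegral.integral_Iic_add_Ioi j1 j2, setIntegral_congr_fun measurableSet_Iic e1,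
    setIntegral_congr_fun measurableSet_Ioi e2, integral_const_mul, integral_const_mul,
    integral_exp_mul_complex_Iic r1, integral_exp_mul_complex_Ioi r2]
  have n0 : (k : ℂ) ≠ 0 := by exact_mod_cast hk.ne'
  have n1 : (k : ℂ) + ξ * Complex.I ≠ 0 := fun h => by rw [h] at r1; simp at r1
  have n2 : -(k : ℂ) + ξ * Complex.I ≠ 0 := fun h => by rw [h] at r2; simp at r2
  have n3 : (μ : ℂ) + (ξ : ℂ) ^ 2 ≠ 0 := by exact_mod_cast (show μ + ξ ^ 2 ≠ 0 by positivity)
  push_cast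
  simp only [mul_zero, Complex.exp_zero]
  rw [← hk2] at n3 ⊢
  field_simp
  linear_combination (-2 * (k : ℂ) * ξ ^ 2) * Complex.I_sq

theorem integrable_g1 {μ : ℝ} (hμ : 0 < μ) : Integrable (g1 μ) := by
  simpa [abs_of_nonneg (g1_nonneg μ _)] using (g1_cexp hμ 0).1.norm

/-- the law of `⟪e, z⟫` under `Gk μ z dz` -/
theorem map_Gk {μ : ℝ} (hμ : 0 < μ) {e : EE n} (he : ‖e‖ = 1) :
    (volume.withDensity fun z : EE n => ENNReal.ofReal (Gk μ z)).map (fun z => ⟪e, z⟫)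
      = volume.withDensity fun s => ENNReal.ofReal (g1 μ s) := by
  have := isFiniteMeasure_withDensity_ofReal (integrable_Gk (n := n) hμ).2
  have := isFiniteMeasure_withDensity_ofReal (integrable_g1 hμ).2
  have cr : Continuous fun z : EE n => ⟪e, z⟫ := (contDiff_ridge e (k := 0)).continuous
  refine Measure.ext_of_charFun (funext fun ξ => ?_)
  rw [charFun_apply_real, charFun_apply_real, integral_map cr.aemeasurable (by fun_prop),
    integral_withDensity_eq_integral_toReal_smul (measurable_Gk μ).ennreal_ofReal (by simp),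
    integral_withDensity_eq_integral_toReal_smul (continuous_g1 μ).measurable.ennreal_ofReal
      (by simp)]
  simp only [ENNReal.toReal_ofReal (Gk_nonneg μ _), ENNReal.toReal_ofReal (g1_nonneg μ _),
    (g1_cexp hμ ξ).2]
  have i : ∀ θ, Integrable fun z : EE n => Gk μ z * Real.cos (ξ * ⟪e, z⟫ + θ) := fun θ =>
    (integrable_Gk hμ).mul_bdd (c := 1) (by fun_prop)
      (Eventually.of_forall fun z => Real.abs_cos_le_one _)
  have e1 : ∀ z : EE n, Gk μ z • Complex.exp (ξ * (⟪e, z⟫ : ℝ) * Complex.I)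
      = ((Gk μ z * Real.cos (ξ * ⟪e, z⟫ + 0) : ℝ) : ℂ)
        + ((Gk μ z * Real.cos (ξ * ⟪e, z⟫ + -(Real.pi / 2)) : ℝ) : ℂ) * Complex.I := by
    intro z
    rw [← sub_eq_add_neg, Real.cos_sub_pi_div_two, add_zero, ← Complex.ofReal_mul,
      Complex.exp_mul_I, Complex.real_smul]
    push_cast
    ring
  simp only [e1]
  rw [integral_add (f := fun z : EE n => ((Gk μ z * Real.cos (ξ * ⟪e, z⟫ + 0) : ℝ) : ℂ))
    (g := fun z : EE n => ((Gk μ z * Real.cos (ξ * ⟪e, z⟫ + -(Real.pi / 2)) : ℝ) : ℂ) * Complex.I)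
    (i 0).ofReal ((i _).ofReal.mul_const _), integral_mul_const,
    integral_complex_ofReal, integral_complex_ofReal, Gk_cos hμ he, Gk_cos hμ he]
  simp


/-- **marginal of the kernel** -/
theorem integral_Gk_ridge {μ : ℝ} (hμ : 0 < μ) {e : EE n} (he : ‖e‖ = 1) {f : ℝ → ℝ}
    (hf : Measurable f) : ∫ z : EE n, Gk μ z * f ⟪e, z⟫ = ∫ s, g1 μ s * f s := by
  have cr : Measurable fun z : EE n => ⟪e, z⟫ := (contDiff_ridge e (k := 0)).continuous.measurable
  have h1 := integral_withDensity_eq_integral_toReal_smul (μ := volume)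
    (measurable_Gk (n := n) μ).ennreal_ofReal (by simp) (fun z => f ⟪e, z⟫)
  have h2 := integral_withDensity_eq_integral_toReal_smul (μ := volume)
    (continuous_g1 μ).measurable.ennreal_ofReal (by simp) f
  rw [← map_Gk hμ he, integral_map cr.aemeasurable hf.aestronglyMeasurable, h1] at h2
  simpa only [ENNReal.toReal_ofReal (Gk_nonneg μ _), ENNReal.toReal_ofReal (g1_nonneg μ _),
    smul_eq_mul] using h2


end

end Crest.Agent.N067
end

-- ▼ part N067/U/Prof

/-!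
# Row 67: the planar profile `u0 = tanh (s/√2)`, `p0 = 1 - u0²`, and its kernel integrals (helper43)
-/

set_option autoImplicit false

open MeasureTheory Laplacian InnerProductSpace Topology Filter Set Metric
open scoped RealInnerProductSpace ContDiff Gradient ENNReal

namespace Crest.Agent.N067

open Crest.Agent.R077 Ker

noncomputable section

variable {n : ℕ}

/-- the planar profile -/
def u0 (s : ℝ) : ℝ := Real.tanh (s / √2)

/-- `ψ` of the planar profile -/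
def p0 (s : ℝ) : ℝ := 1 - u0 s ^ 2

theorem Sol.psi_eq_p0 {v : EE n → ℝ} (h : Sol v) (x : EE n) : psi v x = p0 (dd v x) := by
  rw [psi, h.eq_tanh x]; rfl

theorem u0_neg (s : ℝ) : u0 (-s) = -u0 s := by simp [u0, neg_div]

theorem p0_neg (s : ℝ) : p0 (-s) = p0 s := by simp [p0, u0_neg]

theorem p0_abs (s : ℝ) : p0 |s| = p0 s := by
  rcases abs_choice s with h | h <;> simp [h, p0_neg]

theorem abs_u0_lt (s : ℝ) : |u0 s| < 1 := Real.abs_tanh_lt_one _

theorem p0_pos (s : ℝ) : 0 < p0 s := one_sub_sq_pos (abs_u0_lt s)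

theorem p0_le_one (s : ℝ) : p0 s ≤ 1 := by unfold p0; nlinarith [sq_nonneg (u0 s)]

theorem u0_eq (s : ℝ) : u0 s = (1 - Real.exp (-√2 * s)) / (1 + Real.exp (-√2 * s)) := by
  have e : Real.exp (-√2 * s) = Real.exp (-(s / √2)) / Real.exp (s / √2) := by
    rw [← Real.exp_sub]
    congr 1
    have := sqrt2_pos
    field_simp
    rw [sqrt2_sq]; ring
  have := Real.exp_pos (s / √2)
  have := Real.exp_pos (-(s / √2))
  rw [u0, Real.tanh_eq, e]
  field_simp

theorem one_add_u0 (s : ℝ) : 1 + u0 s = 2 / (1 + Real.exp (-√2 * s)) := by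
  have := Real.exp_pos (-√2 * s)
  rw [u0_eq]; field_simp; ring

theorem one_sub_u0 (s : ℝ) :
    1 - u0 s = 2 * Real.exp (-√2 * s) / (1 + Real.exp (-√2 * s)) := by
  have := Real.exp_pos (-√2 * s)
  rw [u0_eq]; field_simp; ring

theorem one_sub_u0_le (s : ℝ) : 1 - u0 s ≤ 2 * Real.exp (-√2 * s) := by
  have := Real.exp_pos (-√2 * s)
  rw [one_sub_u0]
  exact div_le_self (by positivity) (by linarith)

theorem p0_eq (s : ℝ) : p0 s = 4 * Real.exp (-√2 * s) / (1 + Real.exp (-√2 * s)) ^ 2 := by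
  have := Real.exp_pos (-√2 * s)
  rw [p0, u0_eq]; field_simp; ring

theorem p0_le (s : ℝ) : p0 s ≤ 4 * Real.exp (-√2 * s) := by
  have := Real.exp_pos (-√2 * s)
  rw [p0_eq]
  exact div_le_self (by positivity) (by nlinarith)

theorem p0_le_abs (s : ℝ) : p0 s ≤ 4 * Real.exp (-√2 * |s|) := by
  rw [← p0_abs]; exact p0_le _



theorem hasDerivAt_u0 (s : ℝ) : HasDerivAt u0 (p0 s / √2) s := by
  have h := (Aac.hasDerivAt_tanh (s / √2)).comp s ((hasDerivAt_id s).div_const √2)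
  exact h.congr_deriv (by simp [p0, u0, div_eq_mul_inv])

theorem hasDerivAt_p0 (s : ℝ) : HasDerivAt p0 (-√2 * (u0 s * p0 s)) s := by
  refine (((hasDerivAt_u0 s).pow 2).const_sub 1).congr_deriv ?_
  have := sqrt2_pos
  simp only [Nat.cast_ofNat, Nat.add_one_sub_one, pow_one]
  field_simp
  rw [sqrt2_sq]
  ring

theorem hasDerivAt_p0' (s : ℝ) :
    HasDerivAt (fun s => -√2 * (u0 s * p0 s)) (2 * p0 s - 3 * p0 s ^ 2) s := by
  refine (((hasDerivAt_u0 s).mul (hasDerivAt_p0 s)).const_mul (-√2)).congr_deriv ?_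
  have h := sqrt2_pos
  have e : u0 s ^ 2 = 1 - p0 s := by simp [p0]
  field_simp
  rw [sqrt2_sq, e]
  ring

theorem contDiff_u0 {k : WithTop ℕ∞} : ContDiff ℝ k u0 := by
  rw [show u0 = fun s => (1 - Real.exp (-√2 * s)) / (1 + Real.exp (-√2 * s)) from funext u0_eq]
  exact ContDiff.div (by fun_prop) (by fun_prop) fun s => by positivity

theorem contDiff_p0 {k : WithTop ℕ∞} : ContDiff ℝ k p0 := contDiff_const.sub (contDiff_u0.pow 2)

@[fun_prop] theorem continuous_u0 : Continuous u0 := (contDiff_u0 (k := 0)).continuous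

@[fun_prop] theorem continuous_p0 : Continuous p0 := (contDiff_p0 (k := 0)).continuous

@[fun_prop] theorem measurable_p0 : Measurable p0 := continuous_p0.measurable

theorem monotone_u0 : Monotone u0 :=
  monotone_of_deriv_nonneg (fun s => (hasDerivAt_u0 s).differentiableAt) fun s => by
    rw [(hasDerivAt_u0 s).deriv]; exact div_nonneg (p0_pos s).le sqrt2_pos.le

theorem u0_zero : u0 0 = 0 := by simp [u0]

theorem u0_nonneg {s : ℝ} (hs : 0 ≤ s) : 0 ≤ u0 s := u0_zero ▸ monotone_u0 hs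

theorem p0_anti {a b : ℝ} (h : |a| ≤ |b|) : p0 b ≤ p0 a := by
  rw [← p0_abs a, ← p0_abs b]
  have := pow_le_pow_left₀ (u0_nonneg (abs_nonneg a)) (monotone_u0 h) 2
  unfold p0; linarith

theorem p0_le_exp_mul (a b : ℝ) : p0 a ≤ Real.exp (√2 * |a - b|) * p0 b := by
  wlog h : 0 ≤ a ∧ 0 ≤ b generalizing a b
  · have h1 := this |a| |b| ⟨abs_nonneg a, abs_nonneg b⟩
    rw [p0_abs, p0_abs] at h1
    exact h1.trans (mul_le_mul_of_nonneg_right (Real.exp_le_exp.2 (mul_le_mul_of_nonneg_left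
      (abs_abs_sub_abs_le_abs_sub a b) sqrt2_pos.le)) (p0_pos b).le)
  rcases le_total b a with hab | hab
  · exact (p0_anti (by rwa [abs_of_nonneg h.1, abs_of_nonneg h.2])).trans
      (le_mul_of_one_le_left (p0_pos b).le (Real.one_le_exp (by positivity)))
  · rw [abs_of_nonpos (by linarith), p0_eq, p0_eq, ← mul_div_assoc, mul_left_comm, ← Real.exp_add,
      show √2 * -(a - b) + -√2 * b = -√2 * a by ring]
    refine div_le_div_of_nonneg_left (by positivity) (by positivity)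
      (pow_le_pow_left₀ (by positivity) ?_ 2)
    have := Real.exp_le_exp.2 (show -√2 * b ≤ -√2 * a by nlinarith [sqrt2_pos])
    linarith

/-- if `|d| ≥ |s| - δ` then `p0 d ≤ e^{√2 δ} p0 s` -/
theorem p0_le_of_abs {d s δ : ℝ} (hδ : 0 ≤ δ) (h : |s| - δ ≤ |d|) :
    p0 d ≤ Real.exp (√2 * δ) * p0 s := by
  rcases le_total |s| |d| with h1 | h1
  · exact (p0_anti h1).trans (le_mul_of_one_le_left (p0_pos s).le (Real.one_le_exp (by positivity)))
  · have := p0_le_exp_mul |d| |s|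
    rw [p0_abs, p0_abs, abs_of_nonpos (by linarith)] at this
    exact this.trans (mul_le_mul_of_nonneg_right (Real.exp_le_exp.2
      (mul_le_mul_of_nonneg_left (by linarith) sqrt2_pos.le)) (p0_pos s).le)

/-! ### one-dimensional integrals -/

theorem hasDerivAt_Ap (s : ℝ) :
    HasDerivAt (fun s => √2 / 3 * (1 + u0 s) ^ 3) (Real.exp (√2 * s) * p0 s ^ 2) s := by
  refine ((((hasDerivAt_u0 s).const_add 1).pow 3).const_mul (√2 / 3)).congr_deriv ?_
  have h := sqrt2_pos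
  have h1 := Real.exp_pos (-√2 * s)
  have e : Real.exp (√2 * s) = (Real.exp (-√2 * s))⁻¹ := by rw [← Real.exp_neg]; congr 1; ring
  simp only [Nat.cast_ofNat, Nat.add_one_sub_one]
  rw [e, one_add_u0, p0_eq]
  field_simp
  ring

/-- `∫_a^b e^{√2 s} p0² = √2/3 [(1+u0)³]` -/
theorem int_exp_p0 (a b : ℝ) : ∫ s in a..b, Real.exp (√2 * s) * p0 s ^ 2
    = √2 / 3 * (1 + u0 b) ^ 3 - √2 / 3 * (1 + u0 a) ^ 3 :=
  intervalIntegral.integral_eq_sub_of_hasDerivAt (fun s _ => hasDerivAt_Ap s)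
    (Continuous.intervalIntegrable (by fun_prop) _ _)


theorem int_exp_p0_le (a b : ℝ) : ∫ s in a..b, Real.exp (√2 * s) * p0 s ^ 2 ≤ 8 * √2 / 3 := by
  rw [int_exp_p0]
  obtain ⟨a1, -⟩ := abs_lt.1 (abs_u0_lt a)
  obtain ⟨b1, b2⟩ := abs_lt.1 (abs_u0_lt b)
  have h1 : (1 + u0 b) ^ 3 ≤ 2 ^ 3 := pow_le_pow_left₀ (by linarith) (by linarith) 3
  have h2 : 0 ≤ (1 + u0 a) ^ 3 := pow_nonneg (by linarith) 3
  nlinarith [sqrt2_pos]

/-- `∫_{-T}^T e^{√2 s} p0² ≥ (1 - 4 e^{-√2 T}) 8√2/3` -/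
theorem int_exp_p0_ge {T : ℝ} (hT : 0 ≤ T) :
    (1 - 4 * Real.exp (-√2 * T)) * (8 * √2 / 3) ≤ ∫ s in (-T)..T, Real.exp (√2 * s) * p0 s ^ 2 := by
  rw [int_exp_p0, u0_neg]
  have h1 := one_sub_u0_le T
  have h2 := u0_nonneg hT
  have h3 := (abs_lt.1 (abs_u0_lt T)).2
  set w := 1 - u0 T with hw
  have e : u0 T = 1 - w := by rw [hw]; ring
  have h4 : (1 - 4 * Real.exp (-√2 * T)) * 8 ≤ (1 + u0 T) ^ 3 - (1 + -u0 T) ^ 3 := by
    rw [e]
    have : 0 ≤ w := by linarith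
    have : w ≤ 1 := by linarith
    nlinarith [mul_nonneg ‹0 ≤ w› ‹0 ≤ w›]
  nlinarith [sqrt2_pos]




theorem tendsto_u0_atTop : Tendsto u0 atTop (𝓝 1) := by
  have h : Tendsto (fun s : ℝ => 1 - 2 * Real.exp (-√2 * s)) atTop (𝓝 (1 - 2 * 0)) :=
    ((Real.tendsto_exp_atBot.comp (tendsto_id.const_mul_atTop_of_neg
      (neg_lt_zero.2 sqrt2_pos))).const_mul 2).const_sub 1
  rw [mul_zero, sub_zero] at h
  exact tendsto_of_tendsto_of_tendsto_of_le_of_le h tendsto_const_nhds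
    (fun s => by linarith [one_sub_u0_le s]) fun s => (abs_lt.1 (abs_u0_lt s)).2.le


theorem integrable_exp_p0 : Integrable fun s => Real.exp (√2 * s) * p0 s ^ 2 :=
  integrable_of_intervalIntegral_norm_bounded (l := atTop) (a := fun r : ℝ => -r) (b := id)
    (8 * √2 / 3) (fun r => Continuous.integrableOn_Ioc (by fun_prop)) tendsto_neg_atTop_atBot
    tendsto_id (Eventually.of_forall fun r => by
      simpa only [Real.norm_of_nonneg (mul_nonneg (Real.exp_pos _).le (sq_nonneg _)), id]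
        using int_exp_p0_le (-r) r)




/-- `∫_{s ≤ -L} e^{-√2 s} p0² ≤ 8√2 e^{-√2 L}` -/
theorem int_Iic_exp_neg_p0 (L : ℝ) :
    ∫ s in Iic (-L), Real.exp (-√2 * s) * p0 s ^ 2 ≤ 8 * √2 * Real.exp (-√2 * L) := by
  have h := integral_comp_neg_Iic (-L) fun s => Real.exp (√2 * s) * p0 s ^ 2
  simp only [p0_neg, mul_neg, neg_neg] at h
  simp only [neg_mul]
  rw [h, integral_Ioi_of_hasDerivAt_of_tendsto' (fun s _ => hasDerivAt_Ap s)
    integrable_exp_p0.integrableOn (((tendsto_u0_atTop.const_add 1).pow 3).const_mul _)]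
  have h1 := one_sub_u0_le L
  obtain ⟨h2, h3⟩ := abs_lt.1 (abs_u0_lt L)
  rw [neg_mul] at h1
  have h4 : (1 + 1) ^ 3 - (1 + u0 L) ^ 3 ≤ 12 * (1 - u0 L) := by
    nlinarith [mul_nonneg (sq_nonneg (1 - u0 L)) (show 0 ≤ 5 + u0 L by linarith)]
  nlinarith [sqrt2_pos]

/-! ### kernel integrals -/

theorem integrable_Gk_bdd {μ M : ℝ} (hμ : 0 < μ) {f : EE n → ℝ} (hf : AEStronglyMeasurable f volume)
    (hb : ∀ z, |f z| ≤ M) : Integrable fun z => Gk μ z * f z :=
  (integrable_Gk hμ).mul_bdd (c := M) hf (Eventually.of_forall hb)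

theorem abs_p0_sq_le (s : ℝ) : |p0 s ^ 2| ≤ 1 := by
  rw [abs_of_nonneg (sq_nonneg _)]
  exact pow_le_one₀ (p0_pos s).le (p0_le_one s)

theorem integrable_Gk_p0 (e : EE n) (h : ℝ) :
    Integrable fun z : EE n => Gk 2 z * p0 (⟪e, z⟫ - h) ^ 2 :=
  integrable_Gk_bdd two_pos (Continuous.aestronglyMeasurable (by fun_prop)) fun _ => abs_p0_sq_le _

/-- exact: `3 G * p0² = p0` -/
theorem integral_Gk_p0 {e : EE n} (he : ‖e‖ = 1) (h : ℝ) :
    ∫ z : EE n, Gk 2 z * p0 (⟪e, z⟫ - h) ^ 2 = p0 h / 3 := by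
  have h1 := rep_ridge (M := 2) two_pos he (φ := fun s => p0 (s - h))
    (φ1 := fun s => -√2 * (u0 (s - h) * p0 (s - h)))
    (φ2 := fun s => 2 * p0 (s - h) - 3 * p0 (s - h) ^ 2)
    (contDiff_p0.comp (contDiff_id.sub contDiff_const))
    (fun s => (hasDerivAt_p0 (s - h)).comp_sub_const s h)
    (fun s => (hasDerivAt_p0' (s - h)).comp_sub_const s h)
    (fun s => by rw [abs_of_pos (p0_pos _)]; linarith [p0_le_one (s - h)]) fun s => by
      have := p0_pos (s - h)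
      have := p0_le_one (s - h)
      rw [abs_le]; constructor <;> nlinarith
  have e1 : ∀ z : EE n, Gk 2 z * (2 * p0 (⟪e, z⟫ - h) - (2 * p0 (⟪e, z⟫ - h) - 3 * p0 (⟪e, z⟫ - h) ^ 2))
      = 3 * (Gk 2 z * p0 (⟪e, z⟫ - h) ^ 2) := fun z => by ring
  simp only [e1, integral_const_mul, zero_sub, p0_neg] at h1
  linarith

theorem integral_Gk_p0_le {e : EE n} (he : ‖e‖ = 1) (h : ℝ) :
    ∫ z : EE n, Gk 2 z * p0 (⟪e, z⟫ - h) ^ 2 ≤ 4 / 3 * Real.exp (-√2 * h) := by
  rw [integral_Gk_p0 he]; linarith [p0_le h]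

/-- marginal over a slab `⟪e, z⟫ ∈ A` -/
theorem setIntegral_Gk_ridge {μ : ℝ} (hμ : 0 < μ) {e : EE n} (he : ‖e‖ = 1) {f : ℝ → ℝ}
    (hf : Measurable f) {A : Set ℝ} (hA : MeasurableSet A) :
    ∫ z in {z : EE n | ⟪e, z⟫ ∈ A}, Gk μ z * f ⟪e, z⟫ = ∫ s in A, g1 μ s * f s := by
  have cr : Measurable fun z : EE n => ⟪e, z⟫ := (contDiff_ridge e (k := 0)).continuous.measurable
  have h := integral_Gk_ridge hμ he (hf.indicator hA)
  rw [← integral_indicator hA,
    ← integral_indicator (show MeasurableSet {z : EE n | ⟪e, z⟫ ∈ A} from cr hA)]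
  simp only [indicator, mul_ite, mul_zero] at h ⊢
  exact h

/-- mass of a half space -/
theorem Gk_half {μ : ℝ} (hμ : 0 < μ) {e : EE n} (he : ‖e‖ = 1) (a : ℝ) :
    ∫ z in {z : EE n | a < ⟪e, z⟫}, Gk μ z ≤ Real.exp (-√μ * a) / (2 * μ) := by
  have hk := Real.sqrt_pos.2 hμ
  have h := setIntegral_Gk_ridge hμ he (f := fun _ => 1) measurable_const (measurableSet_Ioi (a := a))
  simp only [mul_one, mem_Ioi] at h
  have i2 := (exp_neg_integrableOn_Ioi a hk).div_const (2 * √μ)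
  rw [h]
  refine (setIntegral_mono (integrable_g1 hμ).integrableOn i2 fun s => g1_le μ s).trans_eq ?_
  rw [integral_div, integral_exp_mul_Ioi (neg_lt_zero.2 hk)]
  field_simp
  rw [Real.sq_sqrt hμ.le]

/-- exponential tail -/
theorem Gk_tail (n : ℕ) {μ a : ℝ} (hμ : 0 < μ) (ha0 : 0 ≤ a) (ha : a ^ 2 < μ) : ∃ K : ℝ, 0 ≤ K ∧
    ∀ R : ℝ, ∫ z in {z : EE n | R ≤ ‖z‖}, Gk μ z ≤ K * Real.exp (-a * R) := by
  have i := integrable_Gk_exp (n := n) hμ ha
  have n0 : ∀ z : EE n, 0 ≤ Gk μ z * Real.exp (a * ‖z‖) := fun z =>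
    mul_nonneg (Gk_nonneg μ z) (Real.exp_pos _).le
  refine ⟨∫ z : EE n, Gk μ z * Real.exp (a * ‖z‖), integral_nonneg n0, fun R => ?_⟩
  have m : MeasurableSet {z : EE n | R ≤ ‖z‖} := (isClosed_le continuous_const continuous_norm).measurableSet
  rw [← integral_mul_const]
  refine (setIntegral_mono_on (integrable_Gk hμ).integrableOn (i.mul_const _).integrableOn m
    fun z hz => ?_).trans (setIntegral_le_integral (i.mul_const _)
      (Eventually.of_forall fun z => mul_nonneg (n0 z) (Real.exp_pos _).le))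
  rw [mul_assoc, ← Real.exp_add]
  exact le_mul_of_one_le_right (Gk_nonneg μ z)
    (Real.one_le_exp (by nlinarith [mul_le_mul_of_nonneg_left hz ha0]))

/-- beyond the distance `λ h`, `λ > 1`, the kernel has mass `o(e^{-√μ h})` -/
theorem Gk_far (n : ℕ) {μ lam ε : ℝ} (hμ : 0 < μ) (hl : 1 < lam) (hε : 0 < ε) : ∃ h0 : ℝ,
    ∀ h, h0 ≤ h → ∫ z in {z : EE n | lam * h ≤ ‖z‖}, Gk μ z ≤ ε * Real.exp (-√μ * h) := by
  have hk := Real.sqrt_pos.2 hμ
  set a := √μ * (1 + lam⁻¹) / 2 with ha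
  have l0 : 0 < lam := by linarith
  have l1 : lam⁻¹ < 1 := inv_lt_one_of_one_lt₀ hl
  have l2 : 0 < lam⁻¹ := inv_pos.2 l0
  obtain ⟨K, hK, hT⟩ := Gk_tail n (a := a) hμ (by positivity) (by
    have : a < √μ := by rw [ha]; nlinarith
    calc a ^ 2 < √μ ^ 2 := pow_lt_pow_left₀ this (by positivity) two_ne_zero
      _ = μ := Real.sq_sqrt hμ.le)
  have hb : 0 < √μ * (lam - 1) / 2 := by have : 0 < lam - 1 := by linarith
                                         positivity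
  have lim : Tendsto (fun h => K * Real.exp (-(√μ * (lam - 1) / 2) * h)) atTop (𝓝 (K * 0)) :=
    (Real.tendsto_exp_atBot.comp (tendsto_id.const_mul_atTop_of_neg (neg_lt_zero.2 hb))).const_mul K
  rw [mul_zero] at lim
  obtain ⟨h0, hh⟩ := eventually_atTop.1 (lim.eventually_le_const hε)
  refine ⟨h0, fun h h1 => (hT _).trans ?_⟩
  have e : -a * (lam * h) = -(√μ * (lam - 1) / 2) * h + -√μ * h := by
    rw [ha]; field_simp; ring
  rw [e, Real.exp_add, ← mul_assoc]
  exact mul_le_mul_of_nonneg_right (hh h h1) (Real.exp_pos _).le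

/-- the part below the sheet -/
theorem Gk_p0_below {e : EE n} (he : ‖e‖ = 1) (h L : ℝ) :
    ∫ z in {z : EE n | ⟪e, z⟫ ≤ h - L}, Gk 2 z * p0 (⟪e, z⟫ - h) ^ 2
      ≤ 4 * Real.exp (-√2 * L) * Real.exp (-√2 * h) := by
  have h1 := setIntegral_Gk_ridge two_pos he (f := fun s => p0 (s - h) ^ 2) (by fun_prop)
    (measurableSet_Iic (a := h - L))
  simp only [mem_Iic] at h1
  have i0 : Integrable fun s => Real.exp (-√2 * s) * p0 s ^ 2 := by
    simpa only [p0_neg, mul_neg, neg_mul] using integrable_exp_p0.comp_neg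
  have i1 : Integrable fun s => Real.exp (-√2 * h) / (2 * √2) *
      (Real.exp (-√2 * (s - h)) * p0 (s - h) ^ 2) := (i0.comp_sub_right h).const_mul _
  have i2 : Integrable fun s => g1 2 s * p0 (s - h) ^ 2 :=
    (integrable_g1 two_pos).mul_bdd (c := 1) (Continuous.aestronglyMeasurable (by fun_prop))
      (Eventually.of_forall fun _ => abs_p0_sq_le _)
  rw [h1]
  refine (setIntegral_mono i2.integrableOn i1.integrableOn fun s => ?_).trans ?_
  · refine (mul_le_mul_of_nonneg_right (g1_le 2 s) (sq_nonneg _)).trans_eq ?_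
    rw [show -√2 * s = -√2 * h + -√2 * (s - h) by ring, Real.exp_add]
    ring
  · have e1 : ∫ s in Iic (h - L), Real.exp (-√2 * (s - h)) * p0 (s - h) ^ 2
        = ∫ s in Iic (-L), Real.exp (-√2 * s) * p0 s ^ 2 := by
      rw [← integral_indicator measurableSet_Iic, ← integral_indicator measurableSet_Iic,
        ← integral_sub_right_eq_self
          ((Iic (-L)).indicator fun s => Real.exp (-√2 * s) * p0 s ^ 2) h]
      refine integral_congr_ae (Eventually.of_forall fun s => ?_)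
      simp only [indicator, mem_Iic]
      exact if_congr (by constructor <;> intro <;> linarith) rfl rfl
    rw [integral_const_mul, e1]
    refine (mul_le_mul_of_nonneg_left (int_Iic_exp_neg_p0 L) (by positivity)).trans_eq ?_
    have := sqrt2_pos
    field_simp
    ring

/-- the slab round the sheet carries almost everything -/
theorem Gk_p0_slab {e : EE n} (he : ‖e‖ = 1) {h T : ℝ} (hT : 0 ≤ T) (hh : T ≤ h) :
    (1 - 4 * Real.exp (-√2 * T)) * (4 / 3 * Real.exp (-√2 * h))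
      ≤ ∫ z in {z : EE n | |⟪e, z⟫ - h| ≤ T}, Gk 2 z * p0 (⟪e, z⟫ - h) ^ 2 := by
  have h1 := setIntegral_Gk_ridge two_pos he (f := fun s => p0 (s - h) ^ 2) (by fun_prop)
    (measurableSet_Icc (a := -T + h) (b := T + h))
  have e0 : {z : EE n | |⟪e, z⟫ - h| ≤ T} = {z : EE n | ⟪e, z⟫ ∈ Icc (-T + h) (T + h)} := by
    ext z
    simp only [mem_ofPred_eq, abs_le, mem_Icc]
    constructor <;> rintro ⟨a, b⟩ <;> constructor <;> linarith
  rw [e0, h1, integral_Icc_eq_integral_Ioc, ← intervalIntegral.integral_of_le (by linarith),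
    ← intervalIntegral.integral_comp_add_right (fun s => g1 2 s * p0 (s - h) ^ 2)]
  have e1 : ∫ s in (-T)..T, g1 2 (s + h) * p0 (s + h - h) ^ 2
      = Real.exp (-√2 * h) / (2 * √2) * ∫ s in (-T)..T, Real.exp (√2 * -s) * p0 (-s) ^ 2 := by
    rw [← intervalIntegral.integral_const_mul]
    refine intervalIntegral.integral_congr fun s hs => ?_
    rw [uIcc_of_le (by linarith)] at hs
    simp only [add_sub_cancel_right, p0_neg]
    rw [g1_of_nonneg 2 (by linarith [hs.1]), show -√2 * (s + h) = -√2 * h + √2 * -s by ring,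
      Real.exp_add]
    ring
  rw [e1, intervalIntegral.integral_comp_neg (fun s => Real.exp (√2 * s) * p0 s ^ 2), neg_neg]
  refine le_trans (le_of_eq ?_) (mul_le_mul_of_nonneg_left (int_exp_p0_ge hT) (by positivity))
  have := sqrt2_pos
  field_simp
  ring

end

end Crest.Agent.N067
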