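import Crest.Agent.N067.U.Ue

/-!
# Row 67: PUP, the upper bound of `P` at depth `T` (helper88)
-/

set_option autoImplicit false

open MeasureTheory Laplacian InnerProductSpace Topology Filter Set Metric
open scoped RealInnerProductSpace Gradient ContDiff

namespace Crest.Agent.N067

open Crest.Agent.R077 Ker

variable {n : ℕ}

theorem sqrt2_ge : 7 / 5 ≤ Real.sqrt 2 := Real.le_sqrt_of_sq_le (by norm_num)

theorem sqrt2_le : Real.sqrt 2 ≤ 3 / 2 := Real.sqrt_le_iff.2 ⟨by norm_num, by norm_num⟩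

theorem integrable_Gk_sub {μ M : ℝ} (hμ : 0 < μ) {f : EE n → ℝ}
    (hf : AEStronglyMeasurable f volume) (h : ∀ y, |f y| ≤ M) (x : EE n) :
    Integrable fun y => Gk μ (x - y) * f y :=
  ((integrable_Gk hμ).comp_sub_left x).mul_bdd hf (c := M) (Eventually.of_forall h)

/-- the distance from `q0 + T e` in terms of the height -/
theorem le_dist_top {e w : EE n} (he : ‖e‖ = 1) {T m : ℝ} (hT : 0 ≤ T)
    (h : 2 * T * ⟪e, w⟫ ≤ T ^ 2 + 2 * m * ‖w‖ - m ^ 2) : ‖w‖ - m ≤ ‖T • e - w‖ := by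
  have _ := hT
  refine le_trans (le_abs_self _) (abs_le_of_sq_le_sq' ?_ (norm_nonneg _) |> abs_le.2)
  rw [norm_sub_sq_real, norm_smul, he, inner_smul_left, mul_one, Real.norm_eq_abs, sq_abs]
  simp only [conj_trivial]
  linarith

/-- comparison of the kernel at two radii -/
theorem Gk_le_far (hn : 4 ≤ n) {y z : EE n} {m : ℝ} (hz : z ≠ 0) (hm : 0 ≤ m)
    (h1 : ‖z‖ - m ≤ ‖y‖) (h2 : ‖z‖ ≤ 2 * ‖y‖) :
    Gk 2 y ≤ 2 ^ (n - 2) * Real.exp (Real.sqrt 2 * m) * Gk 2 z := by
  have hz0 := norm_pos_iff.2 hz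
  have hG := Gk_nonneg 2 z
  have hE : 1 ≤ Real.exp (Real.sqrt 2 * m) := Real.one_le_exp (by positivity)
  have h2n : (1 : ℝ) ≤ 2 ^ (n - 2) := one_le_pow₀ (by norm_num)
  rcases le_total ‖z‖ ‖y‖ with h | h
  · exact (Gk_anti (by omega) two_pos hz h).trans
      (le_mul_of_one_le_left hG (one_le_mul_of_one_le_of_one_le h2n hE))
  have hy : y ≠ 0 := norm_pos_iff.1 (by linarith)
  have h3 := exp_le_Gk hn two_pos hy h
  have h4 : 1 ≤ 2 ^ (n - 2) * (‖y‖ / ‖z‖) ^ (n - 2) := by
    rw [← mul_pow]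
    refine one_le_pow₀ ?_
    rw [← mul_div_assoc, le_div_iff₀ hz0]
    linarith
  have h5 : 1 ≤ Real.exp (Real.sqrt 2 * m) * Real.exp (-√2 * (‖z‖ - ‖y‖)) := by
    rw [← Real.exp_add]
    refine Real.one_le_exp ?_
    have := mul_le_mul_of_nonneg_left (show ‖z‖ - ‖y‖ ≤ m by linarith) sqrt2_pos.le
    linarith
  have h6 := mul_le_mul_of_nonneg_left h3
    (by positivity : 0 ≤ 2 ^ (n - 2) * Real.exp (Real.sqrt 2 * m))
  have h7 := mul_le_mul_of_nonneg_right (one_le_mul_of_one_le_of_one_le h4 h5) (Gk_nonneg 2 y)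
  linarith

set_option maxHeartbeats 800000 in
/-- **PUP**: `q` lies at height `T` above `q0` in the direction `e`; outside `TOP` the function `|d|`
is large in the near region above height `T/2` and in the far forward cone. -/
theorem pupA (hn : 4 ≤ n) {c κ A : ℝ} (hc : 0 < c) (hc1 : c ≤ 1) (hκ : 0 ≤ κ) (hκ1 : κ ≤ 1 / 4)
    (hA0 : 0 ≤ A) :
    ∃ C : ℝ, 0 ≤ C ∧ ∀ (v : EE n → ℝ) (e q0 q : EE n) (T : ℝ) (TOP : Set (EE n)), Sol v →
      ‖e‖ = 1 → MeasurableSet TOP → A ≤ T → 1 ≤ T → ‖q - (q0 + T • e)‖ ≤ A →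
      T - A ≤ |dd v q| →
      (∀ y, y ∉ TOP → ‖y - q0‖ ≤ 5 / c * T → T / 2 ≤ ⟪e, y - q0⟫ → T / 4 - A ≤ |dd v y|) →
      (∀ y, y ∉ TOP → 5 / c * T ≤ ‖y - q0‖ → (1 - κ) * ‖y - q0‖ ≤ ⟪e, y - q0⟫ →
        c * ‖y - q0‖ - T - A ≤ |dd v y|) →
      psi v q * ue v e q ≤ C * Real.exp (-(κ * T)) * ue v e q0 +
        6 * psi v q * ∫ y in TOP, Gk 2 (q - y) * psi v y ^ 2 := by
  have s1 := sqrt2_ge
  have s2 := sqrt2_le
  set ε := c / 200 with hε
  have hε0 : 0 < ε := by positivity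
  have hε1 : ε ≤ 1 / 40 := by rw [hε]; linarith
  obtain ⟨K, hK, hu⟩ := ue_rate n (a := Real.sqrt 2 + ε) (by linarith)
  have ha : (Real.sqrt 2 - ε) ^ 2 < 2 := by
    have := pow_lt_pow_left₀ (show Real.sqrt 2 - ε < Real.sqrt 2 by linarith) (by linarith)
      two_ne_zero
    rwa [sqrt2_sq] at this
  have hI := integrable_Gk_exp (n := n) two_pos ha
  set I := ∫ z : EE n, Gk 2 z * Real.exp ((Real.sqrt 2 - ε) * ‖z‖) with hId
  have hI0 : 0 ≤ I := integral_nonneg fun z => mul_nonneg (Gk_nonneg 2 z) (Real.exp_pos _).le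
  refine ⟨48 * K * Real.exp (5 * A) * I + 4 * 2 ^ (n - 2) * Real.exp (5 * A), by positivity,
    fun v e q0 q T TOP hv he hT hAT h1 hq hd hnear hfar => ?_⟩
  have hu0 := hv.ue_nonneg he q0
  have hψq := hv.psi_pos q
  have hψq' : psi v q ≤ 4 * Real.exp (-(Real.sqrt 2 * (T - A))) :=
    (hv.psi_le_exp q).trans (mul_le_mul_of_nonneg_left (Real.exp_le_exp.2
      (neg_le_neg (mul_le_mul_of_nonneg_left hd sqrt2_pos.le))) (by norm_num))
  set A1 := 48 * K * Real.exp (5 * A) * Real.exp (-(κ * T)) * ue v e q0 with hA1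
  set A2 := 4 * 2 ^ (n - 2) * Real.exp (5 * A) * Real.exp (-(κ * T)) with hA2
  have hA10 : 0 ≤ A1 := by positivity
  have hA20 : 0 ≤ A2 := by positivity
  clear_value A1 A2 I ε
  have hκT : κ * T ≤ 1 / 4 * T := mul_le_mul_of_nonneg_right hκ1 (by linarith)
  have hKT : 5 * T ≤ 5 / c * T := by
    refine mul_le_mul_of_nonneg_right ?_ (by linarith)
    rw [le_div_iff₀ hc]; linarith
  have htri : ∀ y, ‖T • e - (y - q0)‖ - A ≤ ‖q - y‖ := fun y => by
    have := norm_sub_le_norm_sub_add_norm_sub (q0 + T • e) q y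
    rw [norm_sub_rev (q0 + T • e) q, show q0 + T • e - y = T • e - (y - q0) by abel] at this
    linarith
  have hcr : ∀ y, ‖y - q0‖ - T - A ≤ ‖q - y‖ := fun y => by
    have h2 := norm_sub_norm_le (y - q0) (T • e)
    rw [norm_smul, he, mul_one, Real.norm_eq_abs, abs_of_nonneg (show 0 ≤ T by linarith),
      norm_sub_rev (y - q0)] at h2
    linarith [htri y]
  have keyA : ∀ y, (Real.sqrt 2 + ε) * ‖y - q0‖ - Real.sqrt 2 * (T - A) - Real.sqrt 2 * |dd v y| ≤
      5 * A - κ * T + (Real.sqrt 2 - ε) * ‖q - y‖ →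
      psi v q * Fe v e y ≤ A1 * Real.exp ((Real.sqrt 2 - ε) * ‖q - y‖) := fun y hy => by
    have h2 := hu v e hv he y q0
    rw [dist_eq_norm] at h2
    have h3 := hv.psi_le_exp y
    have h4 : Fe v e y ≤ 3 * (4 * Real.exp (-(Real.sqrt 2 * |dd v y|))) *
        (K * Real.exp ((Real.sqrt 2 + ε) * ‖y - q0‖) * ue v e q0) :=
      (hv.Fe_le he y).trans (mul_le_mul (by linarith) h2 (hv.ue_nonneg he y) (by positivity))
    refine (mul_le_mul hψq' h4 (hv.Fe_nonneg e y) (by positivity)).trans ?_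
    have h5 : Real.exp (-(Real.sqrt 2 * (T - A))) * Real.exp (-(Real.sqrt 2 * |dd v y|)) *
        Real.exp ((Real.sqrt 2 + ε) * ‖y - q0‖) ≤
        Real.exp (5 * A) * Real.exp (-(κ * T)) * Real.exp ((Real.sqrt 2 - ε) * ‖q - y‖) := by
      simp only [← Real.exp_add]
      exact Real.exp_le_exp.2 (by linarith)
    have h6 := mul_le_mul_of_nonneg_left h5 (by positivity : 0 ≤ 48 * K * ue v e q0)
    rw [hA1]
    linarith
  have key : ∀ y, psi v q * (Gk 2 (q - y) * Fe v e y) ≤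
      A1 * (Gk 2 (q - y) * Real.exp ((Real.sqrt 2 - ε) * ‖q - y‖)) +
        A2 * (Gk 2 (q0 - y) * Fe v e y) +
        6 * psi v q * TOP.indicator (fun y => Gk 2 (q - y) * psi v y ^ 2) y := fun y => by
    have hG := Gk_nonneg 2 (q - y)
    have hF := hv.Fe_nonneg e y
    have p1 : 0 ≤ A1 * (Gk 2 (q - y) * Real.exp ((Real.sqrt 2 - ε) * ‖q - y‖)) := by positivity
    have p2 : 0 ≤ A2 * (Gk 2 (q0 - y) * Fe v e y) :=
      mul_nonneg hA20 (mul_nonneg (Gk_nonneg 2 _) hF)
    by_cases hy : y ∈ TOP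
    · rw [indicator_of_mem hy]
      have := mul_le_mul_of_nonneg_left (hv.Fe_le_sq he y) (mul_nonneg hψq.le hG)
      linarith
    rw [indicator_of_notMem hy, mul_zero, add_zero]
    have hA : psi v q * Fe v e y ≤ A1 * Real.exp ((Real.sqrt 2 - ε) * ‖q - y‖) →
        psi v q * (Gk 2 (q - y) * Fe v e y) ≤
        A1 * (Gk 2 (q - y) * Real.exp ((Real.sqrt 2 - ε) * ‖q - y‖)) +
          A2 * (Gk 2 (q0 - y) * Fe v e y) := fun h => by
      have := mul_le_mul_of_nonneg_left h hG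
      linarith
    have hD := norm_nonneg (y - q0)
    have hae : 0 ≤ Real.sqrt 2 - ε := by linarith
    have t1 := mul_le_mul_of_nonneg_right s1 (show 0 ≤ T by linarith)
    have t2 := mul_le_mul_of_nonneg_right s2 (show 0 ≤ T by linarith)
    have t3 : 0 ≤ ε * T := by positivity
    have t4 := mul_le_mul_of_nonneg_right s2 hA0
    have t5 : 0 ≤ ε * A := by positivity
    rcases le_total ‖y - q0‖ (5 / c * T) with h2 | h2
    · have h3 : ε * ‖y - q0‖ ≤ T / 40 := by
        refine (mul_le_mul_of_nonneg_left h2 hε0.le).trans (le_of_eq ?_)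
        rw [hε]; field_simp; norm_num
      refine hA (keyA y ?_)
      rcases le_total (T / 2) ⟪e, y - q0⟫ with h4 | h4
      · have h5 := mul_le_mul_of_nonneg_left (hnear y hy h2 h4) sqrt2_pos.le
        have h6 := mul_le_mul_of_nonneg_left (hcr y) hae
        linarith
      · have h5 := le_dist_top (w := y - q0) (T := T) (m := 0) he (by linarith) (by
          have := mul_le_mul_of_nonneg_left h4 (show 0 ≤ 2 * T by linarith)
          linarith)
        have h6 := mul_le_mul_of_nonneg_left (show ‖y - q0‖ - A ≤ ‖q - y‖ by linarith [htri y]) hae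
        have h7 : 0 ≤ Real.sqrt 2 * |dd v y| := by positivity
        linarith
    rcases le_total ((1 - κ) * ‖y - q0‖) ⟪e, y - q0⟫ with h4 | h4
    · refine hA (keyA y ?_)
      have h5 := mul_le_mul_of_nonneg_left (hfar y hy h2 h4) sqrt2_pos.le
      have h6 := mul_le_mul_of_nonneg_left (hcr y) hae
      have h7 : 5 * T ≤ c * ‖y - q0‖ := by
        refine le_trans (le_of_eq ?_) (mul_le_mul_of_nonneg_left h2 hc.le)
        field_simp
      have h8 := mul_le_mul_of_nonneg_right s1 (show 0 ≤ c * ‖y - q0‖ by positivity)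
      have h9 : ε * ‖y - q0‖ = c * ‖y - q0‖ / 200 := by rw [hε]; ring
      linarith
    have h5 := le_dist_top (w := y - q0) (T := T) (m := (1 - κ) * T) he (by linarith) (by
      have h6 := mul_le_mul_of_nonneg_left h4 (show 0 ≤ 2 * T by linarith)
      have h7 : ((1 - κ) * T) ^ 2 ≤ T ^ 2 :=
        pow_le_pow_left₀ (by nlinarith) (by nlinarith) 2
      linarith)
    have h6 := Gk_le_far hn (y := q - y) (z := q0 - y) (m := (1 - κ) * T + A)
      (norm_pos_iff.1 (by rw [norm_sub_rev]; linarith)) (by nlinarith)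
      (by rw [norm_sub_rev]; linarith [htri y]) (by rw [norm_sub_rev]; linarith [hcr y])
    have h7 : psi v q * Gk 2 (q - y) ≤ A2 * Gk 2 (q0 - y) := by
      refine (mul_le_mul hψq' h6 hG (by positivity)).trans ?_
      have h8 : Real.exp (-(Real.sqrt 2 * (T - A))) * Real.exp (Real.sqrt 2 * ((1 - κ) * T + A)) ≤
          Real.exp (5 * A) * Real.exp (-(κ * T)) := by
        simp only [← Real.exp_add]
        have := mul_le_mul_of_nonneg_right s1 (show 0 ≤ κ * T by positivity)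
        have : 0 ≤ κ * T := by positivity
        exact Real.exp_le_exp.2 (by linarith)
      have h9 := mul_le_mul_of_nonneg_left h8
        (mul_nonneg (by positivity : (0 : ℝ) ≤ 4 * 2 ^ (n - 2)) (Gk_nonneg 2 (q0 - y)))
      rw [hA2]
      linarith
    have := mul_le_mul_of_nonneg_right h7 hF
    linarith
  have hFb : ∀ y, |Fe v e y| ≤ 6 := fun y => by
    rw [abs_of_nonneg (hv.Fe_nonneg e y)]; exact hv.Fe_le_six he y
  have hFm := (hv.continuous_Fe he).aestronglyMeasurable (μ := volume)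
  have i0 := integrable_Gk_sub two_pos hFm hFb q
  have i1 : Integrable fun y => Gk 2 (q - y) * Real.exp ((Real.sqrt 2 - ε) * ‖q - y‖) :=
    hI.comp_sub_left q
  have i2 := integrable_Gk_sub two_pos hFm hFb q0
  have i3 : Integrable (TOP.indicator fun y => Gk 2 (q - y) * psi v y ^ 2) :=
    (integrable_Gk_sub two_pos (M := 1) (hv.psi_sm.continuous.pow 2).aestronglyMeasurable
      (fun y => by
        rw [abs_of_nonneg (sq_nonneg _)]
        exact pow_le_one₀ (hv.psi_pos y).le (psi_le_one v y)) q).indicator hT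
  have hm := integral_mono (i0.const_mul (psi v q))
    (((i1.const_mul A1).add (i2.const_mul A2)).add (i3.const_mul (6 * psi v q))) key
  simp only [Pi.add_apply] at hm
  have i4 : Integrable fun y => A1 * (Gk 2 (q - y) * Real.exp ((Real.sqrt 2 - ε) * ‖q - y‖)) +
      A2 * (Gk 2 (q0 - y) * Fe v e y) := (i1.const_mul A1).add (i2.const_mul A2)
  rw [integral_add i4 (i3.const_mul _),
    integral_add (i1.const_mul A1) (i2.const_mul A2), integral_const_mul, integral_const_mul,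
    integral_const_mul, integral_const_mul, integral_indicator hT, ← hv.ue_eq_int he,
    ← hv.ue_eq_int he, integral_sub_left_eq_self
      (fun z => Gk 2 z * Real.exp ((Real.sqrt 2 - ε) * ‖z‖)) volume q, ← hId] at hm
  rw [hA1, hA2] at hm
  linarith



end Crest.Agent.N067
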